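import Mathlib

/-! Independence of the face boundaries in the cycle space (rank lemma), for a connected subgraph
of a graph on a surface. -/

namespace Vale.Agent.P039.H590

open Finset

section

variable {A : Type} [DecidableEq A]

/-- extension by zero -/
def ext0 (K : Finset A) (n : K → ℚ) (a : A) : ℚ := if h : a ∈ K then n ⟨a, h⟩ else 0

theorem ext0_add (K : Finset A) (n m : K → ℚ) (a : A) :
    ext0 K (n + m) a = ext0 K n a + ext0 K m a := by
  unfold ext0; split_ifs <;> simp

theorem ext0_smul (K : Finset A) (c : ℚ) (n : K → ℚ) (a : A) :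
    ext0 K (c • n) a = c * ext0 K n a := by
  unfold ext0; split_ifs <;> simp

theorem ext0_mem (K : Finset A) (n : K → ℚ) (a : K) : ext0 K n a = n a := by
  unfold ext0; rw [dif_pos a.2]

theorem ext0_not_mem (K : Finset A) (n : K → ℚ) {a : A} (h : a ∉ K) : ext0 K n a = 0 := by
  unfold ext0; rw [dif_neg h]

end

variable {E X Fa : Type} [Fintype E] [DecidableEq E] [Fintype X] [DecidableEq X]
  [Fintype Fa] [DecidableEq Fa]

omit [DecidableEq E] [Fintype Fa] [DecidableEq Fa] in
/-- `∂∂ = 0` against an arbitrary function on the vertices. -/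
theorem orth (s t : E → X) (l r : E → Fa)
    (hcyc : ∀ n : Fa → ℚ, ∀ x, ∑ e with t e = x, (n (l e) - n (r e)) =
      ∑ e with s e = x, (n (l e) - n (r e)))
    (n : Fa → ℚ) (y : X → ℚ) : ∑ e, (n (l e) - n (r e)) * (y (t e) - y (s e)) = 0 := by
  have h1 : ∑ e, (n (l e) - n (r e)) * y (t e) =
      ∑ x, ∑ e with t e = x, (n (l e) - n (r e)) * y x := by
    rw [← Finset.sum_fiberwise (s := univ) (g := t)]
    refine Finset.sum_congr rfl fun x _ => Finset.sum_congr rfl fun e he => ?_
    rw [(Finset.mem_filter.1 he).2]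
  have h2 : ∑ e, (n (l e) - n (r e)) * y (s e) =
      ∑ x, ∑ e with s e = x, (n (l e) - n (r e)) * y x := by
    rw [← Finset.sum_fiberwise (s := univ) (g := s)]
    refine Finset.sum_congr rfl fun x _ => Finset.sum_congr rfl fun e he => ?_
    rw [(Finset.mem_filter.1 he).2]
  simp only [mul_sub, Finset.sum_sub_distrib]
  rw [h1, h2, sub_eq_zero]
  refine Finset.sum_congr rfl fun x _ => ?_
  rw [← Finset.sum_mul, ← Finset.sum_mul, hcyc n x]

/-- **Lemma R.** For a connected subgraph `(U, S)` which contains all edges on the boundaries of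
the faces in the proper subset `K` of the faces, `|K| ≤ |S| - |U| + 1`. -/
theorem rank_ineq (s t : E → X) (l r : E → Fa)
    (hcyc : ∀ n : Fa → ℚ, ∀ x, ∑ e with t e = x, (n (l e) - n (r e)) =
      ∑ e with s e = x, (n (l e) - n (r e)))
    (hconst : ∀ n : Fa → ℚ, (∀ e, n (l e) = n (r e)) → ∀ a b, n a = n b)
    (S : Finset E) (U : Finset X) (K : Finset Fa)
    (hS : ∀ e, l e ∈ K ∨ r e ∈ K → e ∈ S)
    (hconn : ∀ y : X → ℚ, (∀ e ∈ S, y (s e) = y (t e)) → ∀ a ∈ U, ∀ b ∈ U, y a = y b)
    (hK : ∃ a, a ∉ K) : K.card + U.card ≤ S.card + 1 := by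
  classical
  let L : ((K → ℚ) × (U → ℚ)) →ₗ[ℚ] (S → ℚ) × ℚ :=
    { toFun := fun z => (fun e => (ext0 K z.1 (l e) - ext0 K z.1 (r e)) +
        (ext0 U z.2 (t e) - ext0 U z.2 (s e)), ∑ u, z.2 u)
      map_add' := by
        intro z w
        ext
        · simp only [Prod.fst_add, Prod.snd_add, ext0_add, Pi.add_apply]; ring
        · simp [Finset.sum_add_distrib]
      map_smul' := by
        intro c z
        ext
        · simp only [Prod.smul_fst, Prod.smul_snd, ext0_smul, Pi.smul_apply, smul_eq_mul,
            RingHom.id_apply]; ring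
        · simp [Finset.mul_sum] }
  have hL : Function.Injective L := by
    rw [← LinearMap.ker_eq_bot, LinearMap.ker_eq_bot']
    rintro ⟨n, y⟩ h
    have h1 : ∀ e ∈ S, (ext0 K n (l e) - ext0 K n (r e)) +
        (ext0 U y (t e) - ext0 U y (s e)) = 0 := by
      intro e he
      exact congrFun (congrArg Prod.fst h) ⟨e, he⟩
    have h2 : ∑ u, y u = 0 := congrArg Prod.snd h
    have h3 : ∀ e, e ∉ S → ext0 K n (l e) - ext0 K n (r e) = 0 := by
      intro e he
      have ha : l e ∉ K := fun h' => he (hS e (Or.inl h'))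
      have hb : r e ∉ K := fun h' => he (hS e (Or.inr h'))
      rw [ext0_not_mem K n ha, ext0_not_mem K n hb, sub_zero]
    have h4 := orth s t l r hcyc (ext0 K n) (ext0 U y)
    have h5 : ∑ e, (ext0 K n (l e) - ext0 K n (r e)) ^ 2 = 0 := by
      have h6 : ∀ e, (ext0 K n (l e) - ext0 K n (r e)) ^ 2 =
          -((ext0 K n (l e) - ext0 K n (r e)) * (ext0 U y (t e) - ext0 U y (s e))) := by
        intro e
        by_cases he : e ∈ S
        · have := h1 e he
          have h7 : ext0 U y (t e) - ext0 U y (s e) = -(ext0 K n (l e) - ext0 K n (r e)) := by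
            linarith
          rw [h7]; ring
        · rw [h3 e he]; ring
      rw [Finset.sum_congr rfl fun e _ => h6 e, Finset.sum_neg_distrib, h4, neg_zero]
    have h8 : ∀ e, ext0 K n (l e) = ext0 K n (r e) := by
      intro e
      have := (Finset.sum_eq_zero_iff_of_nonneg (fun e _ => sq_nonneg _)).1 h5 e (mem_univ e)
      have := pow_eq_zero_iff (two_ne_zero) |>.1 this
      linarith
    obtain ⟨a0, ha0⟩ := hK
    have hn : n = 0 := by
      funext a
      have := hconst (ext0 K n) h8 a a0
      rw [ext0_mem, ext0_not_mem K n ha0] at this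
      simpa using this
    have h9 : ∀ e ∈ S, ext0 U y (s e) = ext0 U y (t e) := by
      intro e he
      have := h1 e he
      rw [h8 e] at this
      linarith
    have h10 := hconn (ext0 U y) h9
    have hy : y = 0 := by
      funext u
      have h11 : ∀ v : U, y v = y u := by
        intro v
        have := h10 v v.2 u u.2
        rwa [ext0_mem, ext0_mem] at this
      rw [Finset.sum_congr rfl fun v _ => h11 v] at h2
      simp only [Finset.sum_const, Finset.card_univ, Fintype.card_coe, nsmul_eq_mul,
        mul_eq_zero, Nat.cast_eq_zero, Finset.card_eq_zero] at h2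
      rcases h2 with h2 | h2
      · exact absurd u.2 (Finset.eq_empty_iff_forall_notMem.1 h2 u.1)
      · simpa using h2
    rw [hn, hy]; rfl
  have := LinearMap.finrank_le_finrank_of_injective hL
  simpa [Module.finrank_prod, Module.finrank_fintype_fun_eq_card] using this

end Vale.Agent.P039.H590
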